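import Vale.Agent.P088.R2.H464.B.Hyf
import Vale.Agent.P088.R2.H657.B1.Met

/-!
# P088, zone B1: the tensors in the frame of the cell
-/

open Set Filter
open scoped ContDiff Topology

noncomputable section

set_option linter.unusedSectionVars false

namespace Vale.Agent.P088.R2.H464.B

open Vale.Agent.P088.LR Vale.Agent.P088.HY
open Vale.Agent.P088.R2.H961.F
open Vale.Agent.P088.R2.H968.B
open Vale.Agent.P088.R2.H657.B1

section dc

variable {α ι F : Type*} [Fintype ι] [NormedAddCommGroup F] [NormedSpace ℝ F]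
  {M : α → ι → F} {U : α → Set F} {hU : ∀ x, IsOpen (U x)} {K : ℕ} {A : α → ℝ} {f f' : α → F → ℝ}

/-- The classes of the first derivatives. -/
def Dc (M : α → ι → F) (U : α → Set F) (hU : ∀ x, IsOpen (U x)) (K : ℕ) (A : α → ℝ)
    (f : α → F → ℝ) : Prop :=
  (G1 M U hU).Sm f ∧ ∀ l, (G1 M U hU).Gc K (cp A) (D1 M l f)

theorem Dc.add (h : Dc M U hU K A f) (h' : Dc M U hU K A f') :
    Dc M U hU K A fun x w => f x w + f' x w :=
  ⟨h.1.add h'.1, fun l => ((h.2 l).add (h'.2 l) (sm_D1 h.1 l) (sm_D1 h'.1 l)).congr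
    fun _ _ hw => db_add h.1 h'.1 l _ hw⟩

theorem Dc.const (a : α → ℝ) : Dc M U hU K A fun x _ => a x :=
  ⟨Ge.Sm.const a, fun l => (Ge.Gc.zero K _).congr fun x w _ => by
    show fderiv ℝ (fun _ => a x) w _ = 0
    simp⟩

theorem Dc.cmul (A0 : ∀ x, 0 ≤ A x) {a : α → ℝ} (ha : ∃ C, ∀ x, |a x| ≤ C)
    (h : Dc M U hU K A f) : Dc M U hU K A fun x w => a x * f x w := by
  obtain ⟨C, hC⟩ := ha
  refine ⟨(Ge.Sm.const a).mul h.1, fun l => ?_⟩
  have h1 : (G1 M U hU).Gc K (cp fun _ => 1) fun x _ => a x :=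
    Ge.Gc.const K _ a ⟨C, fun x w _ => by simpa [cp] using hC x⟩
  have h2 := cp_mul (fun _ => zero_le_one) A0 h1 (h.2 l) (Ge.Sm.const a) (sm_D1 h.1 l)
  simp only [one_mul] at h2
  refine h2.congr fun x w hw => ?_
  show fderiv ℝ (fun w => a x * f x w) w _ = _
  rw [fderiv_const_mul (h.1.at x hw)]
  rfl

theorem Dc.sum (A0 : ∀ x, 0 ≤ A x) {β : Type*} (S : Finset β) {f : β → α → F → ℝ}
    (h : ∀ s ∈ S, Dc M U hU K A (f s)) : Dc M U hU K A fun x w => ∑ s ∈ S, f s x w := by
  classical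
  induction S using Finset.induction_on with
  | empty => simpa using Dc.const (M := M) (hU := hU) (K := K) fun _ => 0
  | insert s S hs ih =>
    have h1 := (h s (Finset.mem_insert_self s S)).add
      (ih fun t ht => h t (Finset.mem_insert_of_mem ht))
    simpa only [Finset.sum_insert hs] using h1

theorem Dc.sub (A0 : ∀ x, 0 ≤ A x) (h : Dc M U hU K A f) (h' : Dc M U hU K A f') :
    Dc M U hU K A fun x w => f x w - f' x w := by
  have h1 := h.add (Dc.cmul A0 (a := fun _ => -1) ⟨1, fun _ => by simp⟩ h')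
  simpa only [neg_one_mul, ← sub_eq_add_neg] using h1

/-- Zero at the centre. -/
theorem Dc.gc (A0 : ∀ x, 0 ≤ A x) (cv : ∀ x, Convex ℝ (U x)) (p : α → F) (hp : ∀ x, p x ∈ U x)
    (hq : ∃ B, ∀ x, ∀ w ∈ U x, ∃ q : ι → ℝ, w - p x = ∑ i, q i • M x i ∧ ∀ i, |q i| ≤ B)
    (h : Dc M U hU K A f) (f0 : ∀ x, f x (p x) = 0) : (G1 M U hU).Gc (K + 1) (cp A) f := by
  refine gc_G1 ?_ h.2
  obtain ⟨B, hB⟩ := hq
  choose C hC0 hC using fun l => ((h.2 l).zero_of).nn (fun x _ _ => A0 x)
  refine ⟨Fintype.card ι * (B * ∑ i, C i), fun x w hw => ?_⟩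
  obtain ⟨q, e, hq⟩ := hB x w hw
  have h1 := mv1 (cv x) (hU x) (h.1 x) hw (hp x) e hq (A := (∑ i, C i) * A x)
    fun i w hw => (hC i x w hw).trans (mul_le_mul_of_nonneg_right
      (Finset.single_le_sum (f := C) (fun i _ => hC0 i) (Finset.mem_univ i)) (A0 x))
  rw [f0, sub_zero] at h1
  refine h1.trans (le_of_eq ?_)
  simp only [cs]
  ring

end dc

section fr

variable {α : Type} {n : ℕ} {c : α → CD n} {U : α → Set (V n)} {hU : ∀ x, IsOpen (U x)} {K : ℕ}
  {k : α → ℝ} {s g : α → MF n}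

/-- The tensor in the frame. -/
theorem sg_dc (k0 : ∀ x, 0 ≤ k x) (hN : ∃ C, ∀ x i j, |(c x).N i j| ≤ C)
    (h : ∀ i j, Dc (Mc c) U hU K k fun x w => s x w i j) (i j : Fin n) :
    Dc (Mc c) U hU K k (sg c s i j) := by
  obtain ⟨C, hC⟩ := hN
  have h1 : Dc (Mc c) U hU K k fun x w => ∑ k, ∑ l, (c x).N i k * (c x).N j l * s x w k l :=
    Dc.sum k0 _ fun a _ => Dc.sum k0 _ fun b _ => Dc.cmul k0 ⟨|C| * |C|, fun x => by
      rw [abs_mul]
      exact mul_le_mul ((hC x i a).trans (le_abs_self C)) ((hC x j b).trans (le_abs_self C))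
        (abs_nonneg _) (abs_nonneg _)⟩ (h a b)
  exact h1.sub k0 (Dc.const fun _ => if i = j then 1 else 0)

/-- The metric in the frame. -/
theorem kg_dc (k0 : ∀ x, 0 ≤ k x) (hM : ∃ C, ∀ x i j, |(c x).M i j| ≤ C)
    (h : ∀ i j, Dc (Mc c) U hU K k fun x w => g x w i j) (i j : Fin n) :
    Dc (Mc c) U hU K k (kg c g i j) := by
  obtain ⟨C, hC⟩ := hM
  have h1 : Dc (Mc c) U hU K k fun x w => ∑ k, ∑ l, g x w k l * (c x).M k i * (c x).M l j := by
    have h2 : Dc (Mc c) U hU K k fun x w =>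
        ∑ k, ∑ l, ((c x).M k i * (c x).M l j) * g x w k l :=
      Dc.sum k0 _ fun a _ => Dc.sum k0 _ fun b _ => Dc.cmul k0 ⟨|C| * |C|, fun x => by
        rw [abs_mul]
        exact mul_le_mul ((hC x a i).trans (le_abs_self C)) ((hC x b j).trans (le_abs_self C))
          (abs_nonneg _) (abs_nonneg _)⟩ (h a b)
    have e : (fun x (w : V n) => ∑ k, ∑ l, g x w k l * (c x).M k i * (c x).M l j) =
        fun x w => ∑ k, ∑ l, ((c x).M k i * (c x).M l j) * g x w k l := by
      funext x w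
      exact Finset.sum_congr rfl fun a _ => Finset.sum_congr rfl fun b _ => by ring
    rw [e]; exact h2
  exact h1.sub k0 (Dc.const fun _ => if i = j then 1 else 0)

/-- The tensor in the frame is the identity at the centre. -/
theorem sg_zero {x : α} {p : V n} (h : (c x).M * (c x).M.transpose = s x p) (i j : Fin n) :
    sg c s i j x p = 0 := by
  have h1 : (c x).N * s x p * (c x).N.transpose = 1 := by
    rw [← h, ← Matrix.mul_assoc, (c x).nm, Matrix.one_mul, ← Matrix.transpose_mul, (c x).nm,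
      Matrix.transpose_one]
  have h2 : ((c x).N * s x p * (c x).N.transpose) i j =
      ∑ k, ∑ l, (c x).N i k * (c x).N j l * s x p k l := by
    rw [Matrix.mul_apply, Finset.sum_comm]
    refine Finset.sum_congr rfl fun l _ => ?_
    rw [Matrix.mul_apply, Finset.sum_mul]
    exact Finset.sum_congr rfl fun k _ => by rw [Matrix.transpose_apply]; ring
  unfold sg
  rw [← h2, h1, Matrix.one_apply, sub_self]

/-- The metric in the frame is the identity at the centre. -/
theorem kg_zero {x : α} {p : V n} (h : (c x).M * (c x).M.transpose = s x p) (i j : Fin n) :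
    kg c (fun x w => (s x w)⁻¹) i j x p = 0 := by
  have hMN : (c x).M * (c x).N = 1 := mul_eq_one_comm.1 (c x).nm
  have h0 : (s x p)⁻¹ = (c x).N.transpose * (c x).N := by
    refine Matrix.inv_eq_right_inv ?_
    rw [← h, Matrix.mul_assoc, ← Matrix.mul_assoc (c x).M.transpose, ← Matrix.transpose_mul,
      (c x).nm, Matrix.transpose_one, Matrix.one_mul, hMN]
  have h1 : (c x).M.transpose * (s x p)⁻¹ * (c x).M = 1 := by
    rw [h0, ← Matrix.mul_assoc, ← Matrix.transpose_mul, (c x).nm, Matrix.transpose_one,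
      Matrix.one_mul, (c x).nm]
  have h2 : ((c x).M.transpose * (s x p)⁻¹ * (c x).M) i j =
      ∑ k, ∑ l, (s x p)⁻¹ k l * (c x).M k i * (c x).M l j := by
    rw [Matrix.mul_apply, Finset.sum_comm]
    refine Finset.sum_congr rfl fun l _ => ?_
    rw [Matrix.mul_apply, Finset.sum_mul]
    exact Finset.sum_congr rfl fun k _ => by rw [Matrix.transpose_apply]; ring
  unfold kg
  rw [← h2, h1, Matrix.one_apply, sub_self]

end fr

end Vale.Agent.P088.R2.H464.B
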