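import Vale.Agent.P088.R2.H968.B1.Hqw
import Vale.Agent.P088.R2.H644.B1.In3
import Vale.Agent.P088.R2.H591.B1.Mat
import Vale.Agent.P088.R2.H657.B1.Ixm

/-!
# P088, zone B1: `Hq` on helper724's family
-/

open Set Filter
open scoped ContDiff Topology

noncomputable section

set_option linter.unusedSectionVars false

namespace Vale.Agent.P088.R2.H464.B

open Vale.Agent.P088.LR Vale.Agent.P088.HY
open Vale.Agent.P088.R2.H31.EP
open Vale.Agent.P088.R2.H464.Cu (mid dif)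
open Vale.Agent.P088.R2.H961.F
open Vale.Agent.P088.R2.H968.B
open Vale.Agent.P088.R2.H968.B1
open Vale.Agent.P088.R2.H724.B1
open Vale.Agent.P088.R2.H644.B1 (Us Us_open TL cv_ix m1_ix m2_ix sL_ix sLm_ix hL_ix hLm_ix)
open Vale.Agent.P088.R2.H696.B1 (TB PB pB NuB)
open Vale.Agent.P088.R2.H238.C (Th Te Gz)
open Vale.Agent.P088.R2.H516.B (mu)

variable {n : ℕ} {A : ℝ} {T : Cst → ℝ → Prop}

/-- The thresholds. -/
structure TX (n : ℕ) (A : ℝ) (ph : PhC) (q : Cst) (η : ℝ) : Prop where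
  ph : q.ph = ph
  tl : TL n q
  tb : ∃ e : Cst → ℝ, TB n e q
  nb : Nb n q A η

/-- The frozen matrix. -/
theorem ix_fm (x : Ix n A T) : H591.B1.Fm x.q x.d x.p x.c.M x.c.N :=
  ⟨x.c.nm, x.fr.M⟩

/-- The stiffness of the model. -/
theorem ix_e (x : Ix n A T) {z : VV n} (hz : z ∈ x.Z) :
    fe (fun x : Ix n A T => x.c) x z = Real.exp (H696.B1.vB x.q x.d z) := by
  unfold fe
  rw [T_e, x.fr.e, one_mul]
  have h2 : (1 / 2 : ℝ) • (z.1 + z.2) = mid z := rfl
  rw [h2, x.fr.l (mid z) (Z_cub x hz)]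
  rfl

/-- `μ ≤ 1 + 2 m`. -/
theorem ix_mu (x : Ix n A T) {e : Cst → ℝ} (hT : TB n e x.q) {z : VV n} (hz : z ∈ x.Z) :
    (mu x.c.T : VV n → ℝ) z ≤ 1 + 2 * x.d.m x.q z := by
  have hp := pB x.ok hT (z := z) hz.1
  have h0 : (mu x.c.T : VV n → ℝ) z =
      1 + fe (fun x : Ix n A T => x.c) x z * ∑ i, (∑ k, x.c.N i k * (z.1 k - z.2 k)) ^ 2 := by
    change 1 + (x.c.T.e : VV n → ℝ) z * (x.c.T.qq : VV n → ℝ) z = _
    rw [T_qq]
    rfl
  have h1 : ∑ i, (∑ k, x.c.N i k * (z.1 k - z.2 k)) ^ 2 ≤ 102 / 100 * HY.sq (z.1 - z.2) :=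
    (ix_fm x).n_up x.ok x.th x.te (z.1 - z.2)
  have h2 := H238.C.r2_ge x.ok x.th x.te z
  have h3 : fe (fun x : Ix n A T => x.c) x z ≤ x.d.E x.q z := by
    rw [ix_e x hz]; exact hp.ev
  have h4 : 0 ≤ HY.sq (z.1 - z.2) := Finset.sum_nonneg fun _ _ => sq_nonneg _
  have h5 : 0 < x.d.E x.q z := Real.exp_pos _
  have h6 : x.d.m x.q z = x.d.E x.q z * x.d.r2 z := rfl
  have h7 : 0 ≤ ∑ i, (∑ k, x.c.N i k * (z.1 k - z.2 k)) ^ 2 :=
    Finset.sum_nonneg fun _ _ => sq_nonneg _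
  rw [h0, h6]
  have h8 : fe (fun x : Ix n A T => x.c) x z * ∑ i, (∑ k, x.c.N i k * (z.1 k - z.2 k)) ^ 2 ≤
      x.d.E x.q z * (102 / 100 * HY.sq (z.1 - z.2)) := mul_le_mul h3 h1 h7 h5.le
  nlinarith [mul_nonneg h5.le h4, mul_le_mul_of_nonneg_left h2 h5.le]

/-- `(N + μ)² ≤ e μ`. -/
theorem ix_sz (x : Ix n A T) {e : Cst → ℝ} (hT : TB n e x.q) {z : VV n} (hz : z ∈ x.Z) :
    fν (fun x : Ix n A T => x.c) H724.B1.fN x z ^ 2 ≤
      fe (fun x : Ix n A T => x.c) x z * (mu x.c.T : VV n → ℝ) z := by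
  have hp := pB x.ok hT (z := z) hz.1
  have h1 := ix_mu x hT hz
  have h2 := mu_ge (fun x : Ix n A T => x.c) x z
  have h3 : H724.B1.fN x z ≤ x.d.N x.q z := hp.nN
  have h4 : 0 ≤ H724.B1.fN x z := (H238.C.N_pos x.ok x.th _).le
  have h5 : 0 ≤ x.d.m x.q z := by
    have := H238.C.r2_ge x.ok x.th x.te z
    have h6 : 0 ≤ HY.sq (z.1 - z.2) := Finset.sum_nonneg fun _ _ => sq_nonneg _
    exact mul_nonneg (Real.exp_pos _).le (by linarith)
  have h6 : 0 < fe (fun x : Ix n A T => x.c) x z := fe_pos _ x z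
  have h7 : 99 / 100 * x.d.E x.q z ≤ fe (fun x : Ix n A T => x.c) x z := by
    rw [ix_e x hz]; exact hp.ve
  have h8 : fν (fun x : Ix n A T => x.c) H724.B1.fN x z ≤ x.d.N x.q z + (1 + 2 * x.d.m x.q z) := by
    unfold fν; linarith
  have h9 : 0 ≤ fν (fun x : Ix n A T => x.c) H724.B1.fN x z := by
    unfold fν; linarith
  have h10 : 0 < x.d.E x.q z := Real.exp_pos _
  calc fν (fun x : Ix n A T => x.c) H724.B1.fN x z ^ 2
      ≤ (x.d.N x.q z + (1 + 2 * x.d.m x.q z)) ^ 2 := pow_le_pow_left₀ h9 h8 2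
    _ ≤ e x.q / 2 * x.d.E x.q z := hp.nu.m2
    _ ≤ 1 / 2 * x.d.E x.q z := mul_le_mul_of_nonneg_right (by linarith [hT.e1]) h10.le
    _ ≤ fe (fun x : Ix n A T => x.c) x z := by linarith
    _ ≤ fe (fun x : Ix n A T => x.c) x z * (mu x.c.T : VV n → ℝ) z :=
        le_mul_of_one_le_right h6.le h2

theorem ix_k0 (x : Ix n A T) : 0 ≤ kp x := by
  have h1 := x.te.ε0
  have h2 : 0 < x.q.R := x.th.R0
  have h3 := Real.exp_pos (-(2 * x.d.l x.p))
  unfold kp kq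
  refine add_nonneg ?_ (le_min (by norm_num) h3.le)
  split
  · exact le_rfl
  · positivity

theorem ix_d0 (x : Ix n A T) (z : VV n) : 0 ≤ fδ x z :=
  add_nonneg (ix_k0 x) (r_pos _ x z).le

theorem ix_d1 (x : Ix n A T) (h : Nb n x.q A x.η) {z : VV n} (hz : z ∈ x.Z) : fδ x z ≤ 1 := by
  have h1 := (h x.d x.ok x.p x.c x.fr z hz).1
  have h2 := mu_ge (fun x : Ix n A T => x.c) x z
  have h3 := ix_d0 x z
  have h4 : fδ x z * (mu x.c.T : VV n → ℝ) z ≤ x.η := h1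
  have h5 := x.η1
  nlinarith

theorem ix_rt (x : Ix n A T) {z : VV n} :
    fr (fun x : Ix n A T => x.c) x z ≤ H724.B1.ft (fun x : Ix n A T => x.c) H724.B1.fN x z := by
  have hp := mul_pos (fe_pos (fun x : Ix n A T => x.c) x z) (r_pos (fun x : Ix n A T => x.c) x z)
  have h4 : 0 ≤ H724.B1.fN x z := (H238.C.N_pos x.ok x.th _).le
  unfold H724.B1.ft
  rw [le_div_iff₀ hp]
  have h1 := er2 (fun x : Ix n A T => x.c) x z
  have h3 : fr (fun x : Ix n A T => x.c) x z *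
      (fe (fun x : Ix n A T => x.c) x z * fr (fun x : Ix n A T => x.c) x z) =
      fe (fun x : Ix n A T => x.c) x z * fr (fun x : Ix n A T => x.c) x z ^ 2 := by ring
  rw [h3, h1]
  unfold fν
  linarith

theorem ix_t1 (x : Ix n A T) {e : Cst → ℝ} (hT : TB n e x.q) {z : VV n} (hz : z ∈ x.Z) :
    H724.B1.ft (fun x : Ix n A T => x.c) H724.B1.fN x z ≤ 1 := by
  have hp := mul_pos (fe_pos (fun x : Ix n A T => x.c) x z) (r_pos (fun x : Ix n A T => x.c) x z)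
  unfold H724.B1.ft
  rw [div_le_one hp]
  refine le_of_sq_le_sq ?_ hp.le
  have h1 := er2 (fun x : Ix n A T => x.c) x z
  have h2 := ix_sz x hT hz
  have h3 : (fe (fun x : Ix n A T => x.c) x z * fr (fun x : Ix n A T => x.c) x z) ^ 2 =
      fe (fun x : Ix n A T => x.c) x z *
        (fe (fun x : Ix n A T => x.c) x z * fr (fun x : Ix n A T => x.c) x z ^ 2) := by ring
  rw [h3, h1]
  exact h2

theorem ix_N (x : Ix n A T) (z : VV n) : deriv x.d.Φ (2 * ff x.q x.d (mid z)) ≤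
    fe (fun x : Ix n A T => x.c) x z * fr (fun x : Ix n A T => x.c) x z *
      H724.B1.ft (fun x : Ix n A T => x.c) H724.B1.fN x z := by
  rw [ert]
  have h2 := mu_ge (fun x : Ix n A T => x.c) x z
  unfold fν H724.B1.fN
  linarith

/-- **`Hq` on the family**; `a` is the size of the difference of the tensors. -/
theorem hq_ix (hn : 1 ≤ n) (hA : 0 ≤ A) {ph : PhC} (hT : ∀ q η, T q η → TX n A ph q η)
    (hZ : ∀ x : Ix n A T, IsOpen x.Z) {a : Ix n A T → ℝ} (a0 : ∀ x, 0 ≤ a x)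
    (ha : ∃ C, ∀ x : Ix n A T, ∀ w ∈ Us x, x.q.ε * min 1 (Real.exp
      (-(100 * H31.EP.lv n x.q.σ x.q.R x.d.kap x.d.Gs w))) ≤ C * a x)
    (ad : ∃ B, ∀ x : Ix n A T, ∀ z ∈ x.Z,
      a x ≤ B * (fδ x z * fr (fun x : Ix n A T => x.c) x z)) :
    Hq (fun x : Ix n A T => x.c) (fun x => x.Z) hZ (fun x => x.d.s₁) (fun x => x.d.s₂)
      (fun x => gi x.d.s₁) Us Us_open (H724.B1.ft (fun x : Ix n A T => x.c) H724.B1.fN) fδ xL xLm kp a xF xS
      fun x => x.W := by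
  have hm := H657.B1.mq_ix (U := Us (n := n) (A := A) (T := T)) hA
    fun x w hw j => H644.B1.Us_near hw j
  have he₁ : ∀ x : Ix n A T, 0 < x.q.e₁ := fun x => (hT _ _ x.t).tl.g.e0
  have hTL : ∀ q η, T q η → TL n q := fun q η h => (hT q η h).tl
  have hTB : ∀ x : Ix n A T, ∃ e : Cst → ℝ, TB n e x.q := fun x => (hT _ _ x.t).tb
  exact
    { rt := fun x z _ => ix_rt x
      t1 := fun x z hz => by
        obtain ⟨e, he⟩ := hTB x
        exact ix_t1 x he hz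
      d0 := fun x z _ => ix_d0 x z
      d1 := fun x z hz => ix_d1 x (hT _ _ x.t).nb hz
      rd := ⟨1, fun x z _ => by
        rw [one_mul]
        exact le_add_of_nonneg_left (ix_k0 x)⟩
      k0 := ix_k0
      kd := ⟨1, fun x z _ => by
        rw [one_mul]
        exact le_add_of_nonneg_right (r_pos _ x z).le⟩
      a0 := a0
      ad := ad
      cv := cv_ix
      m1 := m1_ix hA
      m2 := m2_ix hA
      sL := sL_ix
      sLm := sLm_ix
      hL := hL_ix hTL hn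
      hLm := hLm_ix hTL hn
      he := fun x z hz => xhe x hz
      s1 := fun i j => hm.s1 Us_open i j
      s2 := fun i j => hm.s2 Us_open i j
      sk := fun i j => hm.sk Us_open i j
      h1 := fun i j => hm.h1 Us_open (K := 3) (by norm_num) i j
      h2 := fun i j => hm.h2 Us_open (K := 3) (by norm_num) a0 ha i j
      hk := fun i j => hm.hk Us_open (K := 3) (by norm_num) i j
      cF := xcF
      cS := xcS he₁
      hF := fun m _ => xhF (ph := ph) (fun x => (hT _ _ x.t).ph) hTB (fun x z _ => ix_N x z) m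
      hS := fun m _ => xhS he₁ m
      S0 := xS0
      S1 := xS1 he₁
      eW := xeW
      eφ := xeφ }

end Vale.Agent.P088.R2.H464.B
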